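import Vale.Agent.P178.Bdl.B1

/-!
The last terms of the Gersten complexes of a regular local ring of arbitrary characteristic.
-/

namespace Vale.Agent.Results.P178.GerstenTail

open Vale.Agent.P178.Gersten IsLocalRing

universe u

theorem result (A : Type u) [CommRing A] [IsRegularLocalRing A] (n m : ℕ) (hn : 1 ≤ n)
    (hm : m = n + 1) (hdim : ringKrullDim A = n + 2)
    (hA : IsAdicComplete (maximalIdeal A) A ∨ ∀ P : Ideal A, P.IsPrime → P.height = m →
      Module.Finite (A ⧸ P) (integralClosure (A ⧸ P) (FractionRing (A ⧸ P)))) :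
    -- the complex in degree `d + 1` is exact at its last term `K₁(A/m)`
    (∀ x : K₁ (closedPoint A), ∃ (P : Pt A m) (a b : K₁ P.P), bd₂ P.P (closedPoint A) a b = x) ∧
    -- the complex in degree `d` is exact at its last term `K₀(A/m)`
    (∃ (P : Pt A m) (t : K₁ P.P), bd₁ P.P (closedPoint A) t = 1) ∧
    -- the complex in degree `d` is exact at the sum of the `K₁(κ(P))`, `ht P = d - 1`
    (∀ u : (P : Pt A m) → K₁ P.P, {P | u P ≠ 1}.Finite →
      ∑ᶠ P : Pt A m, bd₁ P.P (closedPoint A) (u P) = 0 →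
      u ∈ Subgroup.closure {w : (P : Pt A m) → K₁ P.P |
        ∃ (Q : Pt A n) (a b : K₁ Q.P), ∀ P : Pt A m, w P = bd₂ Q.P P.P a b}) ∧
    -- the complex in degree `d - 1` is exact at its last term: `CH^{d-1}(A) = 0`
    (∀ c : Pt A m → ℤ, {P | c P ≠ 0}.Finite →
      c ∈ AddSubgroup.closure {w : Pt A m → ℤ |
        ∃ (Q : Pt A n) (a : K₁ Q.P), ∀ P : Pt A m, w P = bd₁ Q.P P.P a}) := by
  subst hm
  have hN := Vale.Agent.P178.finite_hyp hdim hA
  exact ⟨Vale.Agent.P178.tail_K₁ hdim, Vale.Agent.P178.tail_K₀ hdim,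
    Vale.Agent.P178.tail_middle hn hdim hN, Vale.Agent.P178.tail_cycles hn hdim hN⟩

end Vale.Agent.Results.P178.GerstenTail
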